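import Vale.Agent.P322.Ode

namespace Vale.Agent.Results.P322.CourtadeKumar

open Vale.Agent.P322

theorem result (n : ℕ) (f : (Fin n → Bool) → Bool) (ε : ℝ) (h0 : 0 ≤ ε) (h1 : ε ≤ 1 / 2) :
    mutInf (joint ε f) ≤ 1 - h2 ε := courtadeKumar n f ε h0 h1

end Vale.Agent.Results.P322.CourtadeKumar
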